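import Vale.Agent.P050.H115.Types

/-!
The regular graph on a balanced type class of words over the vertices of a graph.
-/

open Finset Nat

namespace Vale.Agent.P050.H115

section Graph

variable {U : Type*} [Fintype U] [DecidableEq U] (G : SimpleGraph U) [DecidableRel G.Adj]
variable (k : ℕ)

/-- balanced words in the darts of `G`: each dart occurs `k` times -/
def Bal (e : G.Dart × Fin k → G.Dart) : Prop := ∀ d, cnt e d = k

lemma bal_symm {e : G.Dart × Fin k → G.Dart} (he : Bal G k e) :
    Bal G k (fun p => (e p).symm) := by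
  intro d
  refine Eq.trans ?_ (he d.symm)
  unfold cnt
  congr 1
  ext p
  simp only [mem_filter, mem_univ, true_and]
  constructor
  · intro h; rw [← h, SimpleGraph.Dart.symm_symm]
  · intro h; rw [h, SimpleGraph.Dart.symm_symm]

/-- words in the vertices that are sources of balanced dart words -/
def TCl : Type _ := {u : G.Dart × Fin k → U // ∃ e, Bal G k e ∧ ∀ p, u p = (e p).fst}

/-- the graph on the type class -/
def tg : SimpleGraph (TCl G k) where
  Adj u v := u ≠ v ∧ ∃ e, Bal G k e ∧ (∀ p, u.1 p = (e p).fst) ∧ ∀ p, v.1 p = (e p).snd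
  symm := ⟨by
    rintro u v ⟨h, e, he, h1, h2⟩
    exact ⟨h.symm, fun p => (e p).symm, bal_symm G k he, fun p => by rw [h2 p]; rfl,
      fun p => by rw [h1 p]; rfl⟩⟩
  loopless := ⟨fun u h => h.1 rfl⟩

noncomputable instance : Fintype (TCl G k) := by
  classical
  unfold TCl
  infer_instance

noncomputable instance : DecidableEq (TCl G k) := Classical.decEq _

noncomputable instance : DecidableRel (tg G k).Adj := Classical.decRel _

lemma bal_comp {e : G.Dart × Fin k → G.Dart} (he : Bal G k e) (σ : Equiv.Perm (G.Dart × Fin k)) :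
    Bal G k (e ∘ σ) := by
  intro d; rw [cnt_comp]; exact he d

lemma bal_fst : Bal G k (Prod.fst) := by
  intro d
  unfold cnt
  have : (univ.filter fun p : G.Dart × Fin k => p.1 = d) = ({d} : Finset G.Dart) ×ˢ univ := by
    ext ⟨a, b⟩; simp [eq_comm]
  rw [this, Finset.card_product]
  simp

lemma adj_iff [Nonempty G.Dart] (hk : 0 < k) (u v : TCl G k) : (tg G k).Adj u v ↔
    ∃ e, Bal G k e ∧ (∀ p, u.1 p = (e p).fst) ∧ ∀ p, v.1 p = (e p).snd := by
  constructor
  · rintro ⟨_, h⟩; exact h
  · rintro ⟨e, he, h1, h2⟩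
    refine ⟨?_, e, he, h1, h2⟩
    rintro rfl
    obtain ⟨d⟩ := ‹Nonempty G.Dart›
    have h3 := (e (d, ⟨0, hk⟩)).adj
    rw [← h1, ← h2] at h3
    exact h3.ne rfl

/-- the source class member of a balanced word -/
def src (e : {e : G.Dart × Fin k → G.Dart // Bal G k e}) : TCl G k :=
  ⟨fun p => (e.1 p).fst, e.1, e.2, fun _ => rfl⟩

/-- the target class member of a balanced word -/
def tgt (e : {e : G.Dart × Fin k → G.Dart // Bal G k e}) : TCl G k :=
  ⟨fun p => (e.1 p).snd, fun p => (e.1 p).symm, bal_symm G k e.2, fun _ => rfl⟩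

/-- permuting the letters of the words is an automorphism -/
def act (σ : Equiv.Perm (G.Dart × Fin k)) (u : TCl G k) : TCl G k :=
  ⟨u.1 ∘ σ, by
    obtain ⟨e, he, h⟩ := u.2
    exact ⟨e ∘ σ, bal_comp G k he σ, fun p => h (σ p)⟩⟩

lemma act_adj (σ : Equiv.Perm (G.Dart × Fin k)) {u v : TCl G k} (h : (tg G k).Adj u v) :
    (tg G k).Adj (act G k σ u) (act G k σ v) := by
  obtain ⟨hne, e, he, h1, h2⟩ := h
  refine ⟨?_, e ∘ σ, bal_comp G k he σ, fun p => h1 (σ p), fun p => h2 (σ p)⟩
  intro h
  apply hne
  apply Subtype.ext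
  funext p
  have := congrFun (congrArg Subtype.val h) (σ.symm p)
  simpa [act] using this

lemma act_act (σ τ : Equiv.Perm (G.Dart × Fin k)) (u : TCl G k) :
    act G k σ (act G k τ u) = act G k (τ * σ) u := by
  apply Subtype.ext; funext p; rfl

lemma act_one (u : TCl G k) : act G k 1 u = u := by
  apply Subtype.ext; funext p; rfl

lemma exists_act (u v : TCl G k) : ∃ σ, v = act G k σ u := by
  obtain ⟨e, he, h1⟩ := u.2
  obtain ⟨f, hf, h2⟩ := v.2
  obtain ⟨σ, hσ⟩ := exists_perm e f (by funext d; rw [he d, hf d])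
  refine ⟨σ, ?_⟩
  apply Subtype.ext
  funext p
  rw [h2 p, hσ]
  exact (h1 (σ p)).symm

lemma degree_le (u v : TCl G k) : (tg G k).degree u ≤ (tg G k).degree v := by
  obtain ⟨σ, rfl⟩ := exists_act G k u v
  unfold SimpleGraph.degree
  refine Finset.card_le_card_of_injOn (fun w => act G k σ w) ?_ ?_
  · intro w hw
    simp only [Finset.mem_coe, SimpleGraph.mem_neighborFinset] at hw ⊢
    exact act_adj G k σ hw
  · intro a _ b _ h
    have := congrArg (act G k σ⁻¹) h
    simpa [act_act, act_one] using this

lemma degree_eq (u v : TCl G k) : (tg G k).degree u = (tg G k).degree v :=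
  le_antisymm (degree_le G k u v) (degree_le G k v u)

omit [Fintype U] [DecidableEq U] [DecidableRel G.Adj] in
lemma dart_ext' {d d' : G.Dart} (h1 : d.fst = d'.fst) (h2 : d.snd = d'.snd) : d = d' := by
  apply SimpleGraph.Dart.ext
  exact Prod.ext h1 h2

/-- number of darts of the graph on the type class -/
lemma sum_degree [Nonempty G.Dart] (hk : 0 < k) [DecidablePred (Bal G k)] :
    ∑ u, (tg G k).degree u = (univ.filter fun e => Bal G k e).card := by
  classical
  have h1 : ∑ u, (tg G k).degree u =
      ∑ u, ((univ.filter fun e => Bal G k e).filter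
        (fun e => (fun p => (e p).fst) = (u : TCl G k).1)).card := by
    refine Finset.sum_congr rfl fun u _ => ?_
    unfold SimpleGraph.degree
    symm
    refine Finset.card_bij
      (fun e he => tgt G k ⟨e, (mem_filter.1 (mem_filter.1 he).1).2⟩) ?_ ?_ ?_
    · intro e he
      rw [SimpleGraph.mem_neighborFinset, adj_iff G k hk]
      refine ⟨e, (mem_filter.1 (mem_filter.1 he).1).2, fun p => ?_, fun p => rfl⟩
      exact (congrFun (mem_filter.1 he).2 p).symm
    · intro e he f hf h
      funext p
      apply dart_ext'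
      · have h3 := congrFun (mem_filter.1 he).2 p
        have h4 := congrFun (mem_filter.1 hf).2 p
        exact h3.trans h4.symm
      · have := congrFun (congrArg Subtype.val h) p
        exact this
    · intro v hv
      rw [SimpleGraph.mem_neighborFinset, adj_iff G k hk] at hv
      obtain ⟨e, he, h1, h2⟩ := hv
      refine ⟨e, ?_, ?_⟩
      · simp only [mem_filter, mem_univ, true_and]
        exact ⟨he, by funext p; exact (h1 p).symm⟩
      · apply Subtype.ext
        funext p
        exact (h2 p).symm
  rw [h1]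
  rw [Finset.card_eq_sum_card_fiberwise (s := univ.filter fun e => Bal G k e)
    (f := fun e => (fun p => (e p).fst : G.Dart × Fin k → U))
    (t := univ.image (fun u : TCl G k => u.1))]
  · rw [Finset.sum_image]
    intro a _ b _ h
    exact Subtype.ext h
  · intro e he
    simp only [Finset.coe_image, Set.mem_image, Finset.coe_univ, Set.mem_univ, true_and]
    exact ⟨src G k ⟨e, (mem_filter.1 he).2⟩, rfl⟩

end Graph

end Vale.Agent.P050.H115
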