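import Mathlib.Analysis.SpecificLimits.Normed
import Mathlib.Combinatorics.SimpleGraph.DegreeSum
import Vale.Agent.P050.H115.Reg

/-!
Reduction of Sidorenko's inequality to regular target graphs.
-/

open Finset Nat

namespace Vale.Agent.P050.H115

lemma limit_step (a b C m : ℕ) (hm : 0 < m)
    (h : ∀ k, 0 < k → a ^ (m * k) ≤ (m * k + 1) ^ C * b ^ (m * k)) : a ≤ b := by
  by_contra hab
  push Not at hab
  have ha : (0 : ℝ) < a := by exact_mod_cast (Nat.zero_le b).trans_lt hab
  rcases Nat.eq_zero_or_pos b with hb | hb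
  · subst hb
    have h1 := h 1 one_pos
    rw [zero_pow (by omega), mul_zero] at h1
    have : 0 < a ^ (m * 1) := by positivity
    omega
  · have hb' : (0 : ℝ) < b := by exact_mod_cast hb
    set r : ℝ := b / a with hr
    have hr0 : 0 < r := by positivity
    have hr1 : |r| < 1 := by
      rw [abs_of_pos hr0, hr, div_lt_one ha]
      exact_mod_cast hab
    have ht := tendsto_pow_const_mul_const_pow_of_abs_lt_one C hr1
    have ht2 : Filter.Tendsto (fun k : ℕ => m * k + 1) Filter.atTop Filter.atTop := by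
      apply Filter.tendsto_atTop_mono (f := fun k => k)
      · intro k
        nlinarith
      · exact Filter.tendsto_id
    have ht3 := ht.comp ht2
    have hev : ∀ᶠ k : ℕ in Filter.atTop,
        r ≤ ((fun n : ℕ => (n : ℝ) ^ C * r ^ n) ∘ fun k : ℕ => m * k + 1) k := by
      filter_upwards [Filter.eventually_gt_atTop 0] with k hk
      have h1 : (a : ℝ) ^ (m * k) ≤ ((m * k + 1 : ℕ) : ℝ) ^ C * (b : ℝ) ^ (m * k) := by
        exact_mod_cast h k hk
      have h2 : (1 : ℝ) ≤ ((m * k + 1 : ℕ) : ℝ) ^ C * r ^ (m * k) := by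
        rw [hr, div_pow, ← mul_div_assoc, le_div_iff₀ (by positivity), one_mul]
        exact h1
      calc r = 1 * r := (one_mul r).symm
        _ ≤ (((m * k + 1 : ℕ) : ℝ) ^ C * r ^ (m * k)) * r := by gcongr
        _ = ((m * k + 1 : ℕ) : ℝ) ^ C * r ^ (m * k + 1) := by ring
    have := ge_of_tendsto ht3 hev
    linarith

section Hom

variable {U : Type*} [Fintype U] [DecidableEq U] (G : SimpleGraph U) [DecidableRel G.Adj]
variable (k : ℕ)
variable {V : Type*} [Fintype V] (H : SimpleGraph V)

/-- the coordinates of a homomorphism into the graph on the type class -/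
def coordHom (f : H →g tg G k) (p : G.Dart × Fin k) : H →g G where
  toFun x := (f x).1 p
  map_rel' := by
    intro x y h
    obtain ⟨_, e, _, h1, h2⟩ := f.map_rel h
    rw [h1 p, h2 p]
    exact (e p).adj

lemma hom_le : Nat.card (H →g tg G k) ≤
    Nat.card (H →g G) ^ (Fintype.card (G.Dart × Fin k)) := by
  classical
  have h1 : Function.Injective (fun (f : H →g tg G k) => coordHom G k H f) := by
    intro f g h
    apply RelHom.ext
    intro x
    apply Subtype.ext
    funext p
    have := congrFun h p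
    exact congrArg (fun (t : H →g G) => t x) this
  have h2 := Nat.card_le_card_of_injective _ h1
  rw [Nat.card_fun, Nat.card_eq_fintype_card (α := G.Dart × Fin k)] at h2
  exact h2

lemma card_TCl_le : Fintype.card (TCl G k) ≤
    Fintype.card U ^ (Fintype.card (G.Dart × Fin k)) := by
  have h1 : Function.Injective (fun (u : TCl G k) => u.1) := fun a b h => Subtype.ext h
  have h2 := Fintype.card_le_of_injective _ h1
  rw [Fintype.card_fun] at h2
  exact h2

end Hom

/-- the arithmetic of the reduction -/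
lemma arith (D m v k t d B n h x : ℕ) (hV : v ≤ 2 * m) (hsum : t * d = B)
    (hbal : D ^ (D * k) ≤ B * (D * k + 1) ^ D)
    (hmain : t ^ v * d ^ m ≤ x * t ^ m) (ht0 : 0 < t)
    (hx : x ≤ h ^ (D * k)) (htn : t ≤ n ^ (D * k)) :
    (D ^ m) ^ (D * k) ≤ (D * k + 1) ^ (D * m) * (h * n ^ (2 * m - v)) ^ (D * k) := by
  obtain ⟨j, hj⟩ := Nat.exists_eq_add_of_le hV
  have hj' : 2 * m - v = j := by omega
  rw [hj']
  generalize D * k = N at *
  have h1 : B ^ m ≤ x * t ^ j := by
    have h2 : t ^ v * B ^ m ≤ t ^ v * (x * t ^ j) := by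
      calc t ^ v * B ^ m = (t ^ v * d ^ m) * t ^ m := by rw [← hsum]; ring
        _ ≤ (x * t ^ m) * t ^ m := Nat.mul_le_mul_right _ hmain
        _ = x * t ^ (2 * m) := by ring
        _ = x * t ^ (v + j) := by rw [hj]
        _ = t ^ v * (x * t ^ j) := by ring
    exact Nat.le_of_mul_le_mul_left h2 (by positivity)
  calc (D ^ m) ^ N = (D ^ N) ^ m := by rw [← pow_mul, ← pow_mul, mul_comm]
    _ ≤ (B * (N + 1) ^ D) ^ m := Nat.pow_le_pow_left hbal m
    _ = B ^ m * (N + 1) ^ (D * m) := by rw [mul_pow, ← pow_mul]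
    _ ≤ (x * t ^ j) * (N + 1) ^ (D * m) := Nat.mul_le_mul_right _ h1
    _ ≤ (h ^ N * (n ^ N) ^ j) * (N + 1) ^ (D * m) :=
      Nat.mul_le_mul_right _ (Nat.mul_le_mul hx (Nat.pow_le_pow_left htn j))
    _ = (N + 1) ^ (D * m) * (h * n ^ j) ^ N := by
      rw [mul_pow, ← pow_mul, ← pow_mul, mul_comm N j]
      ring

universe u v

/-- If `H` has no isolated vertices (only `|V(H)| ≤ 2 |E(H)|` is needed) and satisfies the
Sidorenko inequality against all regular graphs, then it satisfies it against all graphs. -/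
theorem reduction {V : Type v} [Fintype V] (H : SimpleGraph V) (m : ℕ)
    (hV : Fintype.card V ≤ 2 * m)
    (hreg : ∀ (T : Type u) [Fintype T] [DecidableEq T] (K : SimpleGraph T) [DecidableRel K.Adj]
      (d : ℕ), (∀ t, K.degree t = d) → 0 < d →
        Fintype.card T ^ Fintype.card V * d ^ m ≤ Nat.card (H →g K) * Fintype.card T ^ m)
    {U : Type u} [Fintype U] [DecidableEq U] (G : SimpleGraph U) [DecidableRel G.Adj]
    (hG : Nonempty G.Dart) :
    Fintype.card G.Dart ^ m ≤
      Nat.card (H →g G) * Fintype.card U ^ (2 * m - Fintype.card V) := by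
  classical
  have hD0 : 0 < Fintype.card G.Dart := Fintype.card_pos
  apply limit_step _ _ (Fintype.card G.Dart * m) (Fintype.card G.Dart) hD0
  intro k hk
  have hN : Fintype.card (G.Dart × Fin k) = Fintype.card G.Dart * k := by
    rw [Fintype.card_prod, Fintype.card_fin]
  -- the regular graph
  let t₀ : TCl G k := src G k ⟨Prod.fst, bal_fst G k⟩
  have hdeg : ∀ t, (tg G k).degree t = (tg G k).degree t₀ := fun t => degree_eq G k t t₀
  have hsum : Fintype.card (TCl G k) * (tg G k).degree t₀ =
      (univ.filter fun e : G.Dart × Fin k → G.Dart => ∀ x, cnt e x = k).card := by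
    have h1 := sum_degree G k hk
    simp only [hdeg, Finset.sum_const, Finset.card_univ, smul_eq_mul] at h1
    rw [h1]
    refine congrArg Finset.card ?_
    ext e
    simp only [mem_filter, mem_univ, true_and]
    exact Iff.rfl
  have hbal := balanced_card k hk (Prod.fst : G.Dart × Fin k → G.Dart) (bal_fst G k)
  have hd0 : 0 < (tg G k).degree t₀ := by
    rcases Nat.eq_zero_or_pos ((tg G k).degree t₀) with h | h
    · exfalso
      rw [h, mul_zero] at hsum
      rw [← hsum, zero_mul] at hbal
      have : 0 < Fintype.card G.Dart ^ Fintype.card (G.Dart × Fin k) := by positivity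
      omega
    · exact h
  have hmain := hreg (TCl G k) (tg G k) _ hdeg hd0
  have ht0 : 0 < Fintype.card (TCl G k) := Fintype.card_pos_iff.2 ⟨t₀⟩
  have hhom := hom_le G k H
  have htn := card_TCl_le G k
  rw [hN] at hhom htn hbal
  exact arith _ _ _ _ _ _ _ _ _ _ hV hsum hbal hmain ht0 hhom htn

end Vale.Agent.P050.H115
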