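import Vale.Agent.P050.MathlibUsed
import Mathlib.GroupTheory.Perm.DomMulAct
import Mathlib.Data.Nat.Factorial.BigOperators

/-!
Type classes of words: the balanced class is the largest one.
-/

open Finset Nat

namespace Vale.Agent.P050.H115

section Types

variable {P D : Type*} [Fintype P] [DecidableEq P] [Fintype D] [DecidableEq D]

/-- number of occurrences of the letter `d` in the word `w` -/
def cnt (w : P → D) (d : D) : ℕ := (univ.filter fun p => w p = d).card

omit [DecidableEq P] in
lemma cnt_sum (w : P → D) : ∑ d, cnt w d = Fintype.card P := by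
  unfold cnt
  rw [← Finset.card_eq_sum_card_fiberwise (f := w) (s := univ) (t := univ)
    (fun _ _ => Finset.mem_coe.2 (mem_univ _))]
  rfl

omit [DecidableEq P] [Fintype D] in
lemma cnt_comp (w : P → D) (σ : Equiv.Perm P) : cnt (w ∘ σ) = cnt w := by
  funext d
  unfold cnt
  refine Finset.card_bij (fun p _ => σ p) ?_ ?_ ?_
  · intro a ha; simpa using ha
  · intro a _ b _ h; exact σ.injective h
  · intro b hb; exact ⟨σ.symm b, by simpa using hb, by simp⟩

omit [DecidableEq P] [Fintype D] in
lemma exists_perm (w w' : P → D) (h : cnt w = cnt w') : ∃ σ : Equiv.Perm P, w' = w ∘ σ := by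
  classical
  have e : ∀ d, Nonempty ({p // w' p = d} ≃ {p // w p = d}) := by
    intro d
    refine ⟨Fintype.equivOfCardEq ?_⟩
    have := congrFun h d
    unfold cnt at this
    rw [Fintype.card_subtype, Fintype.card_subtype]
    exact this.symm
  let E : ∀ d, ({p // w' p = d} ≃ {p // w p = d}) := fun d => Classical.choice (e d)
  refine ⟨Equiv.ofFiberEquiv E, ?_⟩
  funext p
  exact (Equiv.ofFiberEquiv_map (f := w') (g := w) E p).symm

omit [DecidableEq P] in
lemma class_card (w : P → D) [DecidableEq P] :
    (univ.filter fun w' : P → D => cnt w' = cnt w).card * ∏ d, (cnt w d)! =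
      (Fintype.card P)! := by
  classical
  have h1 : (univ : Finset (Equiv.Perm P)).card = (Fintype.card P)! := by
    rw [Finset.card_univ, Fintype.card_perm]
  rw [← h1]
  rw [Finset.card_eq_sum_card_fiberwise (f := fun σ : Equiv.Perm P => w ∘ σ) (s := univ)
    (t := univ.filter fun w' : P → D => cnt w' = cnt w)]
  · rw [Finset.sum_const_nat (m := ∏ d, (cnt w d)!)]
    intro w' hw'
    obtain ⟨τ, rfl⟩ := exists_perm w w' (by simpa using ((mem_filter.1 hw').2).symm)
    have h2 : (∏ d, (cnt w d)!) = Fintype.card {g : Equiv.Perm P // w ∘ g = w} := by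
      rw [DomMulAct.stabilizer_card]
      refine Finset.prod_congr rfl fun d _ => ?_
      unfold cnt
      rw [Fintype.card_subtype]
    rw [h2, Fintype.card_subtype]
    refine Finset.card_bij (fun σ _ => σ * τ⁻¹) ?_ ?_ ?_
    · intro σ hσ
      simp only [mem_filter, mem_univ, true_and] at hσ ⊢
      funext p
      have := congrFun hσ (τ⁻¹ p)
      simpa using this
    · intro a _ b _ h; exact mul_right_cancel h
    · intro g hg
      simp only [mem_filter, mem_univ, true_and] at hg
      refine ⟨g * τ, ?_, by simp⟩
      simp only [mem_filter, mem_univ, true_and]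
      funext p
      have := congrFun hg (τ p)
      simpa using this
  · intro σ _
    simp [cnt_comp]

lemma fact_ineq (k c : ℕ) : k ! * k ^ c ≤ c ! * k ^ k := by
  rcases le_total k c with h | h
  · obtain ⟨m, rfl⟩ := Nat.exists_eq_add_of_le h
    calc k ! * k ^ (k + m) = (k ! * k ^ m) * k ^ k := by ring
      _ ≤ (k ! * (k + 1) ^ m) * k ^ k := by gcongr; omega
      _ ≤ (k + m)! * k ^ k := by
        gcongr
        exact Nat.factorial_mul_pow_le_factorial
  · obtain ⟨m, rfl⟩ := Nat.exists_eq_add_of_le h
    have h1 : (c + m)! ≤ c ! * (c + m) ^ m := by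
      have h2 := Nat.factorial_mul_descFactorial (n := c + m) (k := m) (by omega)
      rw [← h2]
      simp only [Nat.add_sub_cancel]
      gcongr
      exact Nat.descFactorial_le_pow _ _
    calc (c + m)! * (c + m) ^ c ≤ (c ! * (c + m) ^ m) * (c + m) ^ c := by gcongr
      _ = c ! * (c + m) ^ (c + m) := by ring

omit [DecidableEq D] in
lemma prod_fact (k : ℕ) (c : D → ℕ) (hc : ∑ d, c d = k * Fintype.card D) (hk : 0 < k) :
    (k !) ^ Fintype.card D ≤ ∏ d, (c d)! := by
  have h1 : ∏ d : D, (k ! * k ^ c d) ≤ ∏ d : D, ((c d)! * k ^ k) :=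
    Finset.prod_le_prod' fun d _ => fact_ineq k (c d)
  rw [Finset.prod_mul_distrib, Finset.prod_mul_distrib, Finset.prod_const, Finset.prod_const,
    Finset.prod_pow_eq_pow_sum, hc, ← pow_mul, Finset.card_univ] at h1
  exact Nat.le_of_mul_le_mul_right h1 (by positivity)

/-- number of balanced words -/
lemma balanced_card (k : ℕ) (hk : 0 < k) (b : P → D) (hb : ∀ d, cnt b d = k) :
    Fintype.card D ^ Fintype.card P ≤
      (univ.filter fun w : P → D => ∀ d, cnt w d = k).card *
        (Fintype.card P + 1) ^ Fintype.card D := by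
  classical
  have hN : Fintype.card P = k * Fintype.card D := by
    rw [← cnt_sum b]
    simp [hb, mul_comm]
  have hset : (univ.filter fun w : P → D => ∀ d, cnt w d = k) =
      univ.filter fun w : P → D => cnt w = cnt b := by
    ext w
    simp only [mem_filter, mem_univ, true_and]
    constructor
    · intro h; funext d; rw [h d, hb d]
    · intro h d; rw [h, hb d]
  have hmax : ∀ w : P → D, (univ.filter fun w' : P → D => cnt w' = cnt w).card ≤
      (univ.filter fun w' : P → D => cnt w' = cnt b).card := by
    intro w
    have h1 := class_card w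
    have h2 := class_card b
    have h3 : ∏ d, (cnt b d)! = (k !) ^ Fintype.card D := by
      simp [hb]
    rw [h3] at h2
    have h4 : (k !) ^ Fintype.card D ≤ ∏ d, (cnt w d)! :=
      prod_fact k _ (by rw [cnt_sum, hN]) hk
    have h5 : (univ.filter fun w' : P → D => cnt w' = cnt w).card * (k !) ^ Fintype.card D ≤
        (univ.filter fun w' : P → D => cnt w' = cnt b).card * (k !) ^ Fintype.card D := by
      calc _ ≤ (univ.filter fun w' : P → D => cnt w' = cnt w).card * ∏ d, (cnt w d)! :=
            Nat.mul_le_mul_left _ h4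
        _ = _ := by rw [h1, h2]
    exact Nat.le_of_mul_le_mul_right h5 (by positivity)
  have hcard : (univ : Finset (P → D)).card = Fintype.card D ^ Fintype.card P := by
    rw [Finset.card_univ, Fintype.card_fun]
  rw [← hcard, hset]
  refine le_trans (Finset.card_le_mul_card_image (f := fun w : P → D => cnt w) univ
    ((univ.filter fun w' : P → D => cnt w' = cnt b).card) ?_) ?_
  · intro c hc
    obtain ⟨w, _, rfl⟩ := Finset.mem_image.1 hc
    exact hmax w
  · refine Nat.mul_le_mul_left _ ?_
    have : (univ.image fun w : P → D => cnt w) ⊆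
        Fintype.piFinset fun _ : D => Finset.range (Fintype.card P + 1) := by
      intro c hc
      obtain ⟨w, _, rfl⟩ := Finset.mem_image.1 hc
      rw [Fintype.mem_piFinset]
      intro d
      rw [Finset.mem_range, Nat.lt_succ_iff]
      exact (Finset.card_filter_le _ _)
    refine le_trans (Finset.card_le_card this) ?_
    rw [Fintype.card_piFinset]
    simp

end Types

end Vale.Agent.P050.H115
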